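import Vale.Agent.P218E.Conv
import Vale.Agent.P218I.All
import Vale.Agent.P218U.Fin
import Vale.Agent.P218J.C

/-!
# P218: uniqueness of tangent flows for surfaces: at the first singular time, at all smooth
multiplicity one models with bounded curvature, and for almost regular weak flows of bounded genus
-/

open MeasureTheory Set
open Vale.Agent.P218 (IsTangentFlow IsIntegralBrakkeFlow TangentFlowUnique)
open Vale.Agent.P218F (IsSmoothMCF IsAlmostRegular IsShrinker CurvBound)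
open Vale.Agent.P218E (RescalingsConverge)

theorem Vale.Agent.Results.P218.AllSmoothModels.result
    (μ : ℝ → Measure (EuclideanSpace ℝ (Fin 3))) (hB : IsIntegralBrakkeFlow 2 μ)
    (h0 : μ 0 univ < ⊤) (x₀ : EuclideanSpace ℝ (Fin 3)) (t₀ : ℝ) (ht : 0 < t₀)
    (h : (∃ (M : ℝ → Set (EuclideanSpace ℝ (Fin 3))) (a : ℝ), a < t₀ ∧ IsSmoothMCF M a t₀ ∧
        ∀ t ∈ Ioo a t₀, μ t = Measure.restrict μH[2] (M t)) ∨
      (∃ (S : Set (EuclideanSpace ℝ (Fin 3))) (A2 H2 : EuclideanSpace ℝ (Fin 3) → ℝ),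
        IsShrinker S A2 H2 ∧ CurvBound S A2 H2 ∧
        ∃ ν, IsTangentFlow 2 μ x₀ t₀ ν ∧ ν (-1) = Measure.restrict μH[2] S) ∨
      ∃ a < t₀, IsAlmostRegular μ a t₀) :
    TangentFlowUnique 2 μ x₀ t₀ ∧ RescalingsConverge 2 μ x₀ t₀ := by
  obtain ⟨h1, h2⟩ := Vale.Agent.P218E.fin (x₀ := x₀) Vale.Agent.P218I.tstar hB h0 ht
  have hU : TangentFlowUnique 2 μ x₀ t₀ := by
    rcases h with ⟨M, a, ha, hM, hμ⟩ | ⟨G, A2, H2, hG, hc, h⟩ | ⟨a, ha, hM⟩
    · exact h1 M a ha hM.flow hμ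
    · obtain ⟨S, rfl, s1, s2, s3⟩ := hG.srf hc
      exact h2 S s1 s2 s3 h
    · obtain ⟨M, c, hc, hM⟩ := Vale.Agent.P218J.alm2 hB h0 ht ha hM
      exact Vale.Agent.P218U.fin5 Vale.Agent.P218I.tstar hB h0 ht hc hM
  exact ⟨hU, Vale.Agent.P218E.conv hB h0 x₀ ht hU⟩
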